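import Vale.Agent.P210S.Pot
import Vale.Agent.P366H.Fn

/-!
# P210A: frames, directional derivatives, normalised families (helper45)
-/

open Real
open scoped ContDiff MatrixOrder
open Vale.Agent.P366M Vale.Agent.P210S
open Vale.Agent.P366H (s1 DD hd0 s1_nn s1_zero DD_ge s1_le sm_st)

noncomputable section

namespace Vale.Agent.P210A

variable {n : ℕ} {X : Type} [Mf0 n X] {g g' : Fld n X} {f h : X → ℝ} {x : X} {ξ : Fin n → ℝ}

/-- the derivative in the direction `ξ` -/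
def dd (f : X → ℝ) (x : X) (ξ : Fin n → ℝ) : ℝ := ∑ i, pd i f x * ξ i

/-- the quadratic form -/
def qq (g : Fld n X) (x : X) (ξ : Fin n → ℝ) : ℝ := ∑ i, ∑ k, g x i k * ξ i * ξ k

/-- an orthonormal frame -/
theorem exists_frame (hg : Met g) (x : X) : ∃ S : Fin n → Fin n → ℝ,
    (∀ u w : X → ℝ, ip g u w x = ∑ l, dd u x (S l) * dd w x (S l)) ∧ ∑ l, qq g x (S l) = n := by
  have p := (hg.inv_pos x).posSemidef
  obtain ⟨S, s1, s2⟩ : ∃ S : Matrix (Fin n) (Fin n) ℝ, S.transpose = S ∧ S * S = (mat g x)⁻¹ :=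
    ⟨CFC.sqrt (mat g x)⁻¹, (Matrix.nonneg_iff_posSemidef.1 (CFC.sqrt_nonneg _)).1,
      CFC.sqrt_mul_sqrt_self _ p.nonneg⟩
  have e : ∀ i j, up g i j x = ∑ l, S l i * S l j := fun i j => by
    rw [up, ← s2, Matrix.mul_apply]
    exact Finset.sum_congr rfl fun l _ => by rw [← congrFun (congrFun s1 l) i]; rfl
  refine ⟨fun l i => S l i, fun u w => ?_, ?_⟩
  · simp only [ip, dd, e, Finset.sum_mul, Finset.mul_sum]
    rw [Finset.sum_comm]
    conv_lhs => enter [2, j]; rw [Finset.sum_comm]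
    rw [Finset.sum_comm]
    refine Finset.sum_congr rfl fun l _ => ?_
    exact Finset.sum_congr rfl fun _ _ => Finset.sum_congr rfl fun _ _ => by ring
  · have h1 : ∑ l, qq g x (fun i => S l i) = ∑ i, ∑ k, up g i k x * g x k i := by
      simp only [qq, e, Finset.sum_mul]
      rw [Finset.sum_comm]
      refine Finset.sum_congr rfl fun i _ => ?_
      rw [Finset.sum_comm]
      exact Finset.sum_congr rfl fun k _ => Finset.sum_congr rfl fun _ _ => by
        rw [hg.sy x k i]; ring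
    rw [h1]
    simp [hg.up_mul]

theorem dd_mul (hf : DAt f x) (hh : DAt h x) :
    dd (fun y => f y * h y) x ξ = f x * dd h x ξ + dd f x ξ * h x := by
  simp only [dd, pd_mul hf hh, Finset.mul_sum, Finset.sum_mul, ← Finset.sum_add_distrib]
  exact Finset.sum_congr rfl fun _ _ => by ring

theorem dd_comp {φ : ℝ → ℝ} {d : ℝ} (hφ : HasDerivAt φ d (f x)) (hf : DAt f x) :
    dd (fun y => φ (f y)) x ξ = d * dd f x ξ := by
  simp only [dd, pd_comp hφ hf, Finset.mul_sum, mul_assoc]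

theorem dd_sum {ι : Type*} (s : Finset ι) {F : ι → X → ℝ} (hF : ∀ k ∈ s, DAt (F k) x) :
    dd (fun y => ∑ k ∈ s, F k y) x ξ = ∑ k ∈ s, dd (F k) x ξ := by
  simp only [dd, pd_sum s hF, Finset.sum_mul]
  rw [Finset.sum_comm]

theorem dd_const (c : ℝ) : dd (fun _ => c) x ξ = 0 := by simp [dd, pd_const]

theorem dd_sq {ι : Type} [Fintype ι] {y : ι → X → ℝ} (hy : ∀ i, DAt (y i) x) :
    dd (fun z => ∑ i, y i z ^ 2) x ξ = 2 * ∑ i, y i x * dd (y i) x ξ := by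
  rw [dd_sum _ fun i _ => (hy i).pow 2, Finset.mul_sum]
  refine Finset.sum_congr rfl fun i _ => ?_
  rw [dd_comp (φ := fun t => t ^ 2) (hasDerivAt_pow 2 _) (hy i)]
  norm_num
  ring

/-- normalising a family does not increase the energy, up to the factor -/
theorem dd_norm {ι : Type} [Fintype ι] {y : ι → X → ℝ} (hy : ∀ i, DAt (y i) x)
    (h0 : 0 < ∑ i, y i x ^ 2) :
    ∑ i, dd (fun z => y i z * (√(∑ k, y k z ^ 2))⁻¹) x ξ ^ 2 ≤
      (∑ i, dd (y i) x ξ ^ 2) / ∑ i, y i x ^ 2 := by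
  set S := ∑ i, y i x ^ 2 with hS
  have hd : DAt (fun z => ∑ k, y k z ^ 2) x := DAt.fun_sum fun i _ => (hy i).pow 2
  have r0 : 0 < √S := Real.sqrt_pos.2 h0
  have r2 : √S ^ 2 = S := Real.sq_sqrt h0.le
  have h1 : HasDerivAt (fun t => (√t)⁻¹) (-(1 / (2 * √S)) / √S ^ 2) S :=
    (Real.hasDerivAt_sqrt h0.ne').inv r0.ne'
  have h2 : DAt (fun z => (√(∑ k, y k z ^ 2))⁻¹) x :=
    DifferentiableAt.compM (φ := fun t => (√t)⁻¹) h1.differentiableAt hd
  set t := ∑ i, y i x * dd (y i) x ξ with ht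
  set ρ := (√S)⁻¹ with hρ
  have h3 : dd (fun z => (√(∑ k, y k z ^ 2))⁻¹) x ξ = -(ρ ^ 3 * t) := by
    rw [dd_comp (f := fun z => ∑ k, y k z ^ 2) (φ := fun t => (√t)⁻¹) h1 hd, dd_sq hy, hρ]
    field_simp
    rfl
  have h4 : ρ ^ 2 * S = 1 := by rw [hρ, inv_pow, r2]; field_simp
  have h5 : ∀ i, dd (fun z => y i z * (√(∑ k, y k z ^ 2))⁻¹) x ξ ^ 2 =
      ρ ^ 6 * t ^ 2 * y i x ^ 2 - 2 * ρ ^ 4 * t * (y i x * dd (y i) x ξ) +
        ρ ^ 2 * dd (y i) x ξ ^ 2 := fun i => by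
    rw [dd_mul (hy i) h2, h3]
    change (y i x * -(ρ ^ 3 * t) + dd (y i) x ξ * ρ) ^ 2 = _
    ring
  simp only [h5, Finset.sum_add_distrib, Finset.sum_sub_distrib, ← Finset.mul_sum]
  rw [← hS, ← ht]
  have h6 : (∑ i, dd (y i) x ξ ^ 2) / S = ρ ^ 2 * ∑ i, dd (y i) x ξ ^ 2 := by
    rw [hρ, inv_pow, r2]; field_simp
  have h7 : ρ ^ 6 * t ^ 2 * S = ρ ^ 4 * t ^ 2 := by
    calc _ = ρ ^ 4 * t ^ 2 * (ρ ^ 2 * S) := by ring
      _ = _ := by rw [h4, mul_one]
  rw [h6, h7]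
  nlinarith [mul_nonneg (pow_nonneg (inv_pos.2 r0).le 4) (sq_nonneg t)]

theorem En_frame {A : Type} [Fintype A] {S : Fin n → Fin n → ℝ}
    (hS : ∀ u w : X → ℝ, ip g u w x = ∑ l, dd u x (S l) * dd w x (S l)) (p : A → X → ℝ) :
    En g p x = ∑ l, ∑ a, dd (p a) x (S l) ^ 2 := by
  simp only [En, hS, sq]
  rw [Finset.sum_comm]

theorem En_norm {ι : Type} [Fintype ι] (hg : Met g) {y : ι → X → ℝ} (hy : ∀ i, DAt (y i) x)
    (h0 : 0 < ∑ i, y i x ^ 2) :
    En g (fun i z => y i z * (√(∑ k, y k z ^ 2))⁻¹) x ≤ En g y x / ∑ i, y i x ^ 2 := by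
  obtain ⟨S, hS, -⟩ := exists_frame hg x
  rw [En_frame hS, En_frame hS, Finset.sum_div]
  exact Finset.sum_le_sum fun l _ => dd_norm hy h0

theorem En_mul {ι : Type} [Fintype ι] (hg : Met g) {y : ι → X → ℝ} (hy : ∀ i, DAt (y i) x)
    (h1 : ∀ z, ∑ i, y i z ^ 2 = 1) (hf : DAt f x) :
    En g (fun i z => f z * y i z) x = f x ^ 2 * En g y x + ip g f f x := by
  obtain ⟨S, hS, -⟩ := exists_frame hg x
  rw [En_frame hS, En_frame hS, hS, Finset.mul_sum, ← Finset.sum_add_distrib]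
  refine Finset.sum_congr rfl fun l _ => ?_
  have h2 := dd_sq (ξ := S l) hy
  simp only [h1, dd_const] at h2
  have h3 : ∀ i, dd (fun z => f z * y i z) x (S l) ^ 2 = f x ^ 2 * dd (y i) x (S l) ^ 2 +
      f x * dd f x (S l) * (2 * (y i x * dd (y i) x (S l))) + dd f x (S l) ^ 2 * y i x ^ 2 :=
    fun i => by rw [dd_mul hf (hy i)]; ring
  simp only [h3, Finset.sum_add_distrib, ← Finset.mul_sum]
  rw [← h2, h1]
  ring

theorem ip_sq {ι : Type} [Fintype ι] (hg : Met g) {y : ι → X → ℝ} (hy : ∀ i, DAt (y i) x) :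
    ip g (fun z => ∑ i, y i z ^ 2) (fun z => ∑ i, y i z ^ 2) x ≤
      4 * (∑ i, y i x ^ 2) * En g y x := by
  refine (ip_comb hg (p := y) (t := fun i => 2 * y i x) fun i => ?_).trans_eq ?_
  · rw [pd_sum _ fun k _ => (hy k).pow 2]
    exact Finset.sum_congr rfl fun k _ => by rw [pd_pow (hy k)]; norm_num
  · simp only [mul_pow, ← Finset.mul_sum]
    norm_num

/-- the slope of a smooth step of `∑ y²` -/
theorem ip_step {ι : Type} [Fintype ι] (hg : Met g) {y : ι → X → ℝ} (hy : ∀ i, DAt (y i) x)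
    {a b : ℝ} (ha : 0 < a) :
    ip g (fun z => smoothTransition (a * (b - ∑ i, y i z ^ 2)))
      (fun z => smoothTransition (a * (b - ∑ i, y i z ^ 2))) x ≤
      if b ≤ ∑ i, y i x ^ 2 then 0 else 4 * a ^ 2 * b * DD ^ 2 * En g y x := by
  set μ := ∑ i, y i x ^ 2 with hμ
  have d : HasDerivAt (fun t => smoothTransition (a * (b - t))) (s1 (a * (b - μ)) * (a * -1)) μ :=
    (hd0 _).comp μ (((hasDerivAt_id' μ).const_sub b).const_mul a)
  have hd : DAt (fun z => ∑ k, y k z ^ 2) x := DAt.fun_sum fun i _ => (hy i).pow 2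
  rw [ip_comp (u := fun z => ∑ k, y k z ^ 2) (v := fun z => ∑ k, y k z ^ 2) d d hd hd]
  split_ifs with h
  · rw [s1_zero (Or.inl (mul_nonpos_of_nonneg_of_nonpos ha.le (by linarith)))]
    simp
  · have h1 := ip_sq hg hy
    have h2 := En_nonneg hg y x
    have h3 : s1 (a * (b - μ)) ^ 2 ≤ DD ^ 2 := pow_le_pow_left₀ (s1_nn _) (s1_le _) 2
    have h4 := h1.trans (mul_le_mul_of_nonneg_right
      (mul_le_mul_of_nonneg_left (not_le.1 h).le (by norm_num : (0 : ℝ) ≤ 4)) h2)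
    calc _ = a ^ 2 * (s1 (a * (b - μ)) ^ 2 * ip g (fun z => ∑ i, y i z ^ 2)
          (fun z => ∑ i, y i z ^ 2) x) := by ring
      _ ≤ a ^ 2 * (DD ^ 2 * (4 * b * En g y x)) := by
          have := hg.ip_nonneg (fun z => ∑ i, y i z ^ 2) x
          gcongr
      _ = _ := by ring

/-- the output family and the fallback function -/
theorem out {I A : Type} [Fintype I] [Fintype A] (hg : Met g) {b : I → X → ℝ} {p : A → X → ℝ}
    (hb : ∀ i, Smooth (b i)) (hp : ∀ a, Smooth (p a)) (h1 : ∀ x, ∑ a, p a x ^ 2 = 1) :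
    ∃ (φ : X → ℝ) (p' : I ⊕ A → X → ℝ), Smooth φ ∧ (∀ a, Smooth (p' a)) ∧ ∀ x,
      (0 ≤ φ x ∧ φ x ≤ 1) ∧ ∑ a, p' a x ^ 2 = 1 ∧ (∀ i, p' (.inl i) x ≠ 0 → b i x ≠ 0) ∧
      (∀ a, p' (.inr a) x ≠ 0 → p a x ≠ 0) ∧ ip g φ φ x ≤ 640 * DD ^ 2 * En g b x ∧
      En g p' x ≤ 640 * DD ^ 2 * En g b x + En g p x ∧ (5 / 8 ≤ ∑ i, b i x ^ 2 → φ x = 0) ∧
      (φ x ≤ 1 / 2 → 1 / 2 ≤ ∑ i, b i x ^ 2) ∧
      (1 / 2 ≤ ∑ i, b i x ^ 2 → En g p' x ≤ En g b x / ∑ i, b i x ^ 2) := by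
  have sμ : Smooth fun z => ∑ i, b i z ^ 2 := CD.sum fun i _ => CD.pow (hb i) 2
  have ss : ∀ a c : ℝ, Smooth fun z => smoothTransition (a * (c - ∑ i, b i z ^ 2)) := fun a c =>
    sm_st.compM (CD.mul cd_const (CD.sub cd_const sμ))
  set γ : X → ℝ := fun z => smoothTransition (8 * (1 / 2 - ∑ i, b i z ^ 2)) with hγ
  set y : I ⊕ A → X → ℝ := Sum.elim b fun a z => γ z * p a z with hy
  have sy : ∀ a, Smooth (y a) := by
    rintro (i | a)
    exacts [hb i, CD.mul (ss _ _) (hp a)]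
  have e1 : ∀ z, ∑ a, y a z ^ 2 = ∑ i, b i z ^ 2 + γ z ^ 2 := fun z => by
    simp only [Fintype.sum_sum_type, hy, Sum.elim_inl, Sum.elim_inr, mul_pow, ← Finset.mul_sum, h1,
      mul_one]
  have e2 : ∀ z, 3 / 8 ≤ ∑ a, y a z ^ 2 := fun z => by
    rw [e1]
    have : 0 ≤ ∑ i, b i z ^ 2 := by positivity
    rcases le_total (∑ i, b i z ^ 2) (3 / 8) with h | h
    · rw [show γ z = 1 from smoothTransition.one_of_one_le (by linarith)]
      linarith
    · nlinarith [sq_nonneg (γ z)]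
  have e3 : ∀ z, 0 < ∑ a, y a z ^ 2 := fun z => lt_of_lt_of_le (by norm_num) (e2 z)
  refine ⟨fun z => smoothTransition (16 * (5 / 8 - ∑ i, b i z ^ 2)),
    fun a z => y a z * (√(∑ k, y k z ^ 2))⁻¹, ss _ _, fun a => CD.mul (sy a) (CD.inv (CD.sqrt
      (CD.sum fun i _ => CD.pow (sy i) 2) fun z => (e3 z).ne') fun z =>
        (Real.sqrt_pos.2 (e3 z)).ne'), fun x => ?_⟩
  have n1 := En_norm hg (fun a => (sy a).diff x) (e3 x)
  have n2 : En g y x = En g b x + (γ x ^ 2 * En g p x + ip g γ γ x) := by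
    rw [← En_mul hg (fun a => (hp a).diff x) h1 ((ss _ _).diff x), En, Fintype.sum_sum_type]
    rfl
  have n3 := ip_step hg (fun i => (hb i).diff x) (a := 8) (b := 1 / 2) (by norm_num)
  have n4 := ip_step hg (fun i => (hb i).diff x) (a := 16) (b := 5 / 8) (by norm_num)
  have b0 := En_nonneg hg b x
  have p0 := En_nonneg hg p x
  have d1 : 1 ≤ DD ^ 2 := one_le_pow₀ DD_ge
  have d2 : En g b x ≤ DD ^ 2 * En g b x := le_mul_of_one_le_left b0 d1
  refine ⟨⟨smoothTransition.nonneg _, smoothTransition.le_one _⟩, ?_,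
    fun i h => left_ne_zero_of_mul h,
    fun a h => right_ne_zero_of_mul (left_ne_zero_of_mul h), n4.trans ?_, n1.trans ?_,
    fun h => smoothTransition.zero_of_nonpos (by linarith), fun h => ?_, fun h => n1.trans ?_⟩
  · simp only [mul_pow, ← Finset.sum_mul, inv_pow, Real.sq_sqrt (e3 x).le]
    exact mul_inv_cancel₀ (e3 x).ne'
  · split_ifs <;> nlinarith
  · have n5 : ip g γ γ x ≤ 128 * DD ^ 2 * En g b x := n3.trans (by split_ifs <;> nlinarith)
    have n6 : γ x ^ 2 ≤ ∑ a, y a x ^ 2 := by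
      rw [e1]; exact le_add_of_nonneg_left (by positivity)
    rw [div_le_iff₀ (e3 x), n2]
    nlinarith [mul_le_mul_of_nonneg_left n6 p0, mul_le_mul_of_nonneg_left (e2 x) (b0.trans d2)]
  · by_contra hc
    have := smoothTransition.one_of_one_le (x := 16 * (5 / 8 - ∑ i, b i x ^ 2)) (by linarith)
    linarith
  · have z : γ x = 0 := smoothTransition.zero_of_nonpos (by linarith)
    rw [if_pos h] at n3
    rw [n2, e1, z, le_antisymm n3 (hg.ip_nonneg _ _)]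
    simp

/-- the cut-off of the small amplitudes -/
theorem zeta {d : ℝ} (hd : 0 < d) : ∃ ζ : ℝ → ℝ, ContDiff ℝ ∞ ζ ∧ (∀ t ≤ d, ζ t = 0) ∧
    (∀ t, 0 < t → t ^ 2 ≤ ζ t ^ 2 + 4 * d ^ 2) ∧
    ∀ t, ∃ a, HasDerivAt ζ a t ∧ a * a ≤ 9 * DD ^ 2 := by
  refine ⟨fun t => t * smoothTransition (t / d - 1), contDiff_id.mul (sm_st.comp (by fun_prop)),
    fun t h => ?_, fun t h => ?_, fun t => ⟨_, (hasDerivAt_id' t).fun_mul ((hd0 _).comp t
      (((hasDerivAt_id' t).div_const d).sub_const 1)), ?_⟩⟩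
  · simp only [smoothTransition.zero_of_nonpos (sub_nonpos.2 ((div_le_one hd).2 h)), mul_zero]
  · rcases le_total t (2 * d) with h2 | h2
    · nlinarith [sq_nonneg (t * smoothTransition (t / d - 1))]
    · simp only [smoothTransition.one_of_one_le (x := t / d - 1)
        (by rw [le_sub_iff_add_le, le_div_iff₀ hd]; linarith)]
      nlinarith
  · have a0 := smoothTransition.nonneg (t / d - 1)
    have a1 := smoothTransition.le_one (t / d - 1)
    have a2 := DD_ge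
    have e : t * (s1 (t / d - 1) * (1 / d)) = t / d * s1 (t / d - 1) := by ring
    simp only [one_mul, e]
    by_cases h : t / d - 1 ≤ 0 ∨ 1 ≤ t / d - 1
    · rw [s1_zero h]
      nlinarith
    · push Not at h
      have a3 : t / d * s1 (t / d - 1) ≤ 2 * DD :=
        mul_le_mul (by linarith [h.2]) (s1_le _) (s1_nn _) zero_le_two
      have a4 : 0 ≤ t / d * s1 (t / d - 1) := mul_nonneg (by linarith [h.1]) (s1_nn _)
      nlinarith

end Vale.Agent.P210A
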