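import Vale.Agent.P210S.Defs

/-!
# P210A: the statement `SWEEP` (one sweep of stage 1, with an abstract invariant; helper45)
-/

open Filter Topology Set Metric
open scoped ContDiff
open Vale.Agent.P366M Vale.Agent.P210G Vale.Agent.P210U Vale.Agent.P210S

noncomputable section

namespace Vale.Agent.P210A

section

variable {n : ℕ} {X : Type} [Mf0 n X]

/-- one sweep of duration `s` from `(g, v)` to `(g', v')`; `Q`, `Q'` are the subtracted terms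
`α (E + (2 - δ) V)`, `F` is the output family (of norm at most one), `L` is the rate of loss -/
structure Stp {J : Type} [Fintype J] (U : J → Set X) (B : Set X) (s C c K : ℝ) (L : X → ℝ)
    (g : Fld n X) (v : Fin n → X → ℝ) (Q : X → ℝ) (g' : Fld n X) (v' : Fin n → X → ℝ)
    (Q' : X → ℝ) (F : J → X → ℝ) : Prop where
  met : Met g'
  cc : CC ∞ v'
  q0 : ∀ x, 0 ≤ Q' x
  sm : ∀ j, Smooth (F j)
  sup : ∀ j x, F j x ≠ 0 → x ∈ U j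
  le1 : ∀ x, ∑ j, F j x ^ 2 ≤ 1
  up : ∀ (x : X) (ξ : Fin n → ℝ), ∑ i, ∑ k, g x i k * ξ i * ξ k +
    s / C * ∑ j, (∑ i, pd i (F j) x * ξ i) ^ 2 ≤ ∑ i, ∑ k, g' x i k * ξ i * ξ k
  fz : ∀ x ∈ B, g' x = g x ∧ (∀ i, v' i x = v i x) ∧ 5 / 8 ≤ ∑ j, F j x ^ 2
  gain : ∀ x, Rv g v x - Q x + s * (c * En g' F x ^ 2 - L x) ≤ Rv g' v' x - Q' x
  big : ∀ x, ∑ j, F j x ^ 2 ≤ 3 / 4 → Rv g v x - Q x + s * (K - L x) ≤ Rv g' v' x - Q' x

end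

/-- **SWEEP**: the data are those of `ROUND`; for small `s` there is an invariant `Inv` of states
(for instance: `g₁ ≥ g` and `Q₁ = α (E z + (2 - δ) V z)` for a family `z` with exact supports)
which holds at the start and allows one more sweep -/
def SWEEP (n : ℕ) : Prop := ∃ c > (0 : ℝ), ∃ C > (0 : ℝ), ∃ w > (0 : ℝ), ∀ (X : Type) [Mf0 n X]
  [CompactSpace X] (g : Fld n X) (v : Fin n → X → ℝ), Met g → CC ∞ v →
  ∀ (J : Type) [Fintype J] (Lam : X → ℝ) (U : J → Set X) (V : J → X → ℝ), Pot g w Lam U V →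
  ∀ (A : Type) [Fintype A] (lab : A → J) (p : A → X → ℝ),
  Fam (fun j => {x ∈ U j | V j x = 0}) lab p →
  ∀ (B N : Set X) (j₀ : J), IsClosed B → IsOpen N → B ⊆ N → (∀ j ≠ j₀, ∀ x ∈ U j, x ∉ N) →
  ∀ ε > (0 : ℝ), ∀ K : ℝ, ∃ s₀ > (0 : ℝ), ∀ s, 0 < s → s ≤ s₀ →
  ∃ Inv : Fld n X → (Fin n → X → ℝ) → (X → ℝ) → Prop,
    (∃ Q, Inv g v Q ∧ ∀ x, Q x ≤ ε) ∧ ∀ g₁ v₁ Q₁, Inv g₁ v₁ Q₁ → ∃ g₂ v₂ Q₂ F, Inv g₂ v₂ Q₂ ∧
      Stp U B s C c K (fun x => C * Lam x + c / 128 * En g p x ^ 2 + ε) g₁ v₁ Q₁ g₂ v₂ Q₂ F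

end Vale.Agent.P210A
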