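import Vale.Agent.P210A.Alg
import Vale.Agent.P210R.Defs

/-!
# P210A: `SWEEP` implies `ROUND` (helper45)
-/

open Finset
open scoped ContDiff
open Vale.Agent.P366M Vale.Agent.P366M.Y.C Vale.Agent.P210G Vale.Agent.P210S
open Vale.Agent.P210U (Up)
open Vale.Agent.P210R (gs rr tt SS Sup Dis fi)
open Vale.Agent.P366H (DD DD_ge)

noncomputable section

namespace Vale.Agent.P210A

theorem seq {σ ρ : Type} {P : σ → Prop} {R : σ → ρ → σ → Prop}
    (h : ∀ a, P a → ∃ b a', P a' ∧ R a b a') {a₀ : σ} (h0 : P a₀) :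
    ∃ (a : ℕ → σ) (b : ℕ → ρ), a 0 = a₀ ∧ ∀ k, P (a k) ∧ R (a k) (b k) (a (k + 1)) := by
  choose b f hf hR using h
  let s : ℕ → {a // P a} := fun k => Nat.rec ⟨a₀, h0⟩ (fun _ a => ⟨f a.1 a.2, hf a.1 a.2⟩) k
  exact ⟨fun k => (s k).1, fun k => b (s k).1 (s k).2, rfl, fun k => ⟨(s k).2, hR _ _⟩⟩

theorem gain1 {N : ℕ} {T r : ℕ → ℝ} {τ μ Z S E : ℝ} (hN : 0 < N) (hτ : 0 < τ) (hμ : 5 / 8 ≤ μ)
    (hr : ∀ k, 0 < r k) (hS : 0 ≤ S) (hT : S ≤ ∑ k ∈ range N, T k)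
    (hR : ∑ k ∈ range N, r k ≤ τ * (μ + 5 / 64)) (h0 : 0 ≤ E) (hE : E ≤ Z * S / τ / μ) :
    32 * τ * E ^ 2 ≤ 60 * Z ^ 2 * ∑ k ∈ range N, T k ^ 2 / r k := by
  have h1 := sq_sum_div_le_sum_sq_div (range N) T fun k _ => hr k
  have h2 : 0 < ∑ k ∈ range N, r k := sum_pos (fun k _ => hr k) (nonempty_range_iff.2 hN.ne')
  have h3 : ∑ k ∈ range N, r k ≤ 9 / 5 * τ * μ ^ 2 := by
    nlinarith [mul_nonneg hτ.le (mul_nonneg (sub_nonneg.2 hμ) (sub_nonneg.2 hμ)),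
      mul_nonneg hτ.le (sub_nonneg.2 hμ)]
  have m0 : 0 < μ := by linarith
  calc _ ≤ 32 * τ * (Z * S / τ / μ) ^ 2 := by gcongr
    _ = 288 / 5 * Z ^ 2 * (S ^ 2 / (9 / 5 * τ * μ ^ 2)) := by field_simp; ring
    _ ≤ 60 * Z ^ 2 * ((∑ k ∈ range N, T k) ^ 2 / ∑ k ∈ range N, r k) := by
        gcongr
        norm_num
    _ ≤ _ := by gcongr

theorem gain2 {N : ℕ} {r : ℕ → ℝ} {s a : ℝ} (hs : 0 < s) (ha : 0 ≤ a) (hr : ∀ k, 0 < r k)
    (hR : ∑ k ∈ range N, r k ≤ N * s * (5 / 8 + 5 / 64)) :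
    N * a / 16 ≤ ∑ k ∈ range N, if r k ≤ 3 / 4 * s then a else 0 := by
  have h1 : ∀ k ∈ range N, a * (s - 4 / 3 * r k) ≤ s * if r k ≤ 3 / 4 * s then a else 0 :=
    fun k _ => by
      have := hr k
      split_ifs with h <;> nlinarith
  have h2 := sum_le_sum h1
  simp only [← mul_sum, sum_sub_distrib, sum_const, card_range, nsmul_eq_mul] at h2
  refine le_of_mul_le_mul_left (le_trans ?_ h2) hs
  nlinarith [mul_le_mul_of_nonneg_left hR ha]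

variable {n : ℕ} {X : Type} [Mf0 n X] {g : Fld n X} {t : ℕ → X → ℝ}

theorem met_gs (hg : Met g) (ht : ∀ j, Smooth (t j)) : ∀ m, Met (gs g t m)
  | 0 => hg
  | m + 1 => GbH.met_gb (met_gs hg ht m) cd_const (ht m)

theorem qq_gs (x : X) (ξ : Fin n → ℝ) :
    ∀ m, qq (gs g t m) x ξ = qq g x ξ + ∑ j ∈ range m, dd (t j) x ξ ^ 2
  | 0 => by simp [gs]
  | m + 1 => by
    rw [sum_range_succ, ← add_assoc, ← qq_gs x ξ m]
    simp only [qq, dd, gs, gb, sq, sum_mul_sum, ← sum_add_distrib, Pi.one_apply]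
    exact sum_congr rfl fun _ _ => sum_congr rfl fun _ _ => by ring

theorem up_gs (m : ℕ) : Up g (gs g t m) := fun x ξ => by
  have := qq_gs (g := g) (t := t) x ξ m
  simp only [qq] at this
  rw [this]
  exact le_add_of_nonneg_right (by positivity)

theorem fi_nonneg (hg : Met g) {K : X → ℝ} {x : X} (h : 0 ≤ K x) : 0 ≤ fi g K x :=
  div_nonneg (hg.ip_nonneg _ _) (by positivity)

/-- labels as natural numbers; the first distribution -/
theorem start (hg : Met g) {J A : Type} [Fintype J] [Fintype A] {θ : ℝ} {Λ : X → ℝ}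
    {U : J → Set X} {V : J → X → ℝ} (hP : Pot g θ Λ U V) {lab : A → J} {p : A → X → ℝ}
    (hp : Fam (fun j => {x ∈ U j | V j x = 0}) lab p) (j₀ : J) :
    ∃ (m k₀ : ℕ) (U₀ : ℕ → Set X) (V₀ K : ℕ → X → ℝ) (lb : ℕ → J), Pot g θ Λ U₀ V₀ ∧ Dis K m ∧
      Sup U₀ V₀ K 0 ∧ (∀ x, P210R.En g K m x ≤ En g p x) ∧ (∀ k, U₀ k ⊆ U (lb k)) ∧
      ∀ k ≠ k₀, ∀ x ∈ U₀ k, lb k ≠ j₀ := by
  classical
  obtain ⟨e, he⟩ := Countable.exists_injective_nat J
  have c : ∀ {Q : J → Set X → (X → ℝ) → Prop}, (∀ j, Q j (U j) (V j)) → Q j₀ ∅ 0 → ∀ k,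
      Q (Function.extend e id (fun _ => j₀) k) (Function.extend e U (fun _ => ∅) k)
        (Function.extend e V (fun _ => 0) k) := fun h h' k => by
    by_cases hk : ∃ j, e j = k
    · obtain ⟨j, rfl⟩ := hk
      simpa only [he.extend_apply, id] using h j
    · simpa only [Function.extend_apply' _ _ _ hk] using h'
  set y : ℕ → A → X → ℝ := fun k a => if e (lab a) = k then p a else 0 with hy
  have sy : ∀ k a, Smooth (y k a) := fun k a => by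
    simp only [hy]
    split_ifs
    exacts [hp.sm a, cd_const]
  have hm : ∀ a, e (lab a) ∈ range (univ.sup e + 1) := fun a =>
    mem_range.2 (Nat.lt_succ_of_le (le_sup (f := e) (mem_univ _)))
  refine ⟨univ.sup e + 1, e j₀, Function.extend e U fun _ => ∅, Function.extend e V fun _ => 0,
    fun k x => ∑ a, y k a x ^ 2, Function.extend e id fun _ => j₀,
    ⟨c (Q := fun _ U _ => IsOpen U) hP.opn isOpen_empty,
      c (Q := fun _ U V => ∀ x ∈ U, CAt ∞ V x) hP.sm (by simp),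
      c (Q := fun _ U V => ∀ x ∈ U, 0 ≤ V x) hP.nn (by simp),
      c (Q := fun _ U V => ∀ A, IsClosed {x ∈ U | V x ≤ A}) hP.cl (by simp),
      c (Q := fun _ U V => ∀ x ∈ U, ip g V V x ≤ V x * (θ * V x ^ 2 + Λ x)) hP.gr (by simp),
      hP.sml, hP.l0⟩, ⟨fun k => CD.sum fun a _ => CD.pow (sy k a) 2, fun k x => by positivity,
      fun x => ?_⟩, fun k x h => ?_, fun x => ?_, c (Q := fun j W _ => W ⊆ U j) (fun _ => le_rfl)
      (Set.empty_subset _), fun k hk x hx => ?_⟩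
  · rw [sum_comm, ← hp.one x]
    refine sum_congr rfl fun a _ => ?_
    rw [sum_eq_single_of_mem _ (hm a) fun k _ hk => by simp [hy, hk.symm]]
    simp [hy]
  · obtain ⟨a, -, ha⟩ := exists_ne_zero_of_sum_ne_zero h
    by_cases hk : e (lab a) = k
    · subst hk
      simp only [hy, if_true, ne_eq, pow_eq_zero_iff two_ne_zero] at ha
      simp only [he.extend_apply]
      exact ⟨(hp.sup a x ha).1, (hp.sup a x ha).2.le⟩
    · simp [hy, hk] at ha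
  · have h1 : ∀ k, fi g (fun x => ∑ a, y k a x ^ 2) x ≤ En g (y k) x := fun k =>
      div_le_of_le_mul₀ (by positivity) (En_nonneg hg _ _)
        ((ip_sq hg fun a => (sy k a).diff x).trans_eq (mul_comm _ _))
    refine (sum_le_sum fun k _ => h1 k).trans_eq ?_
    simp only [En]
    rw [sum_comm]
    refine sum_congr rfl fun a _ => ?_
    rw [sum_eq_single_of_mem _ (hm a) fun k _ hk => ?_]
    · simp [hy]
    · simp only [hy, if_neg hk.symm]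
      exact ip_const_left 0
  · by_cases h : ∃ j, e j = k
    · obtain ⟨j, rfl⟩ := h
      rw [he.extend_apply]
      exact fun h => hk (congrArg e h)
    · simp [Function.extend_apply' _ _ _ h] at hx

/-- the output of one sweep -/
def Sw (δ α a b s r₀ d η : ℝ) (m : ℕ) (U : ℕ → Set X) (V : ℕ → X → ℝ) (ϱ L L' : X → ℝ)
    (g : Fld n X) (v : Fin n → X → ℝ) (K t : ℕ → X → ℝ) (v' : Fin n → X → ℝ) (K' : ℕ → X → ℝ) :
    Prop := (∀ j < m, ∀ x, 0 < t j x ∧ (x ∉ U j → t j x ≤ d)) ∧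
  (∀ x, 4 ≤ ϱ x → gs g t m x = g x ∧ (∀ i, v' i x = v i x) ∧ 7 / 8 * s ≤ rr r₀ t m x) ∧
  ∀ x, SS δ α V g v K m x + a * (tt g t m x ^ 2 / rr r₀ t m x) +
    (if rr r₀ t m x ≤ 3 / 4 * s then b else 0) - L x - L' x - η ≤ SS δ α V (gs g t m) v' K' m x

/-- `N` sweeps -/
theorem chain {δ α c b s r₀ d η : ℝ} {m : ℕ} {U : ℕ → Set X} {V K₀ : ℕ → X → ℝ} {ϱ L L' : X → ℝ}
    {v : Fin n → X → ℝ} (hg : Met g) (hv : CC ∞ v) (hD : Dis K₀ m) (hS : Sup U V K₀ 0)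
    (hV : ∀ j, ∀ x ∈ U j, 0 ≤ V j x) (δ1 : δ ≤ 1) (a0 : 0 ≤ α)
    (H : ∀ (g₁ : Fld n X) (v : Fin n → X → ℝ) (K : ℕ → X → ℝ) (h : ℝ), Met g₁ → Up g g₁ →
      CC ∞ v → Dis K m → Sup U V K h → ∃ t v' K' h', (∀ j, Smooth (t j)) ∧ CC ∞ v' ∧ Dis K' m ∧
        Sup U V K' h' ∧ Sw δ α c b s r₀ d η m U V ϱ L L' g₁ v K t v' K') (N : ℕ) :
    ∃ (G : Fld n X) (v' : Fin n → X → ℝ) (t : ℕ → ℕ → X → ℝ) (T : X → ℕ → ℝ), Met G ∧ Up g G ∧
      CC ∞ v' ∧ (∀ k j, Smooth (t k j)) ∧ (∀ k, ∀ j < m, ∀ x, 0 < t k j x ∧ (x ∉ U j → t k j x ≤ d)) ∧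
      (∀ x, 4 ≤ ϱ x → (G x = g x ∧ ∀ i, v' i x = v i x) ∧ ∀ k, 7 / 8 * s ≤ rr r₀ (t k) m x) ∧
      ∀ x, ∑ k ∈ range N, ∑ j ∈ range m, ip G (t k j) (t k j) x ≤ n ∧
        ∑ k ∈ range N, ∑ j ∈ range m, ip G (t k j) (t k j) x ≤ ∑ k ∈ range N, T x k ∧
        Rv g v x - α * P210R.En g K₀ m x + c * ∑ k ∈ range N, T x k ^ 2 / rr r₀ (t k) m x +
          (∑ k ∈ range N, if rr r₀ (t k) m x ≤ 3 / 4 * s then b else 0) - N * (L x + L' x + η) ≤
          Rv G v' x := by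
  obtain ⟨a, t, e0, ha⟩ := seq
    (P := fun a : Fld n X × (Fin n → X → ℝ) × (ℕ → X → ℝ) × ℝ => Met a.1 ∧ Up g a.1 ∧
      CC ∞ a.2.1 ∧ Dis a.2.2.1 m ∧ Sup U V a.2.2.1 a.2.2.2)
    (R := fun a t a' => a'.1 = gs a.1 t m ∧ (∀ j, Smooth (t j)) ∧
      Sw δ α c b s r₀ d η m U V ϱ L L' a.1 a.2.1 a.2.2.1 t a'.2.1 a'.2.2.1)
    (fun a ⟨h1, h2, h3, h4, h5⟩ => by
      obtain ⟨t, v', K', h', b1, b2, b3, b4, b5⟩ := H _ _ _ _ h1 h2 h3 h4 h5
      exact ⟨t, (gs a.1 t m, v', K', h'), ⟨met_gs h1 b1 m, up_trans h2 (up_gs m), b2, b3, b4⟩,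
        rfl, b1, b5⟩) (a₀ := (g, v, K₀, 0)) ⟨hg, up_refl g, hv, hD, hS⟩
  choose hP m6 m7 m8 m9 m10 using ha
  choose m1 m2 m3 m4 m5 using hP
  simp only [← m6] at m9 m10
  have u1 : ∀ k l, k ≤ l → Up (a k).1 (a l).1 := fun k l h => by
    induction l, h using Nat.le_induction with
    | base => exact up_refl _
    | succ l _ ih => exact up_trans ih (m6 l ▸ up_gs m)
  have u2 : ∀ x ξ l, qq (a l).1 x ξ =
      qq g x ξ + ∑ k ∈ range l, ∑ j ∈ range m, dd (t k j) x ξ ^ 2 := fun x ξ l => by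
    induction l with
    | zero => simp [e0]
    | succ l ih => rw [m6, qq_gs, ih, sum_range_succ, add_assoc]
  have u3 : ∀ x, 4 ≤ ϱ x → ∀ l, (a l).1 x = g x ∧ ∀ i, (a l).2.1 i x = v i x := fun x h l => by
    induction l with
    | zero => simp [e0]
    | succ l ih => exact ⟨(m9 l x h).1.trans ih.1, fun i => ((m9 l x h).2.1 i).trans (ih.2 i)⟩
  have u4 : ∀ x l, SS δ α V g v K₀ m x +
      c * ∑ k ∈ range l, tt (a k).1 (t k) m x ^ 2 / rr r₀ (t k) m x +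
      (∑ k ∈ range l, if rr r₀ (t k) m x ≤ 3 / 4 * s then b else 0) - l * (L x + L' x + η) ≤
      SS δ α V (a l).1 (a l).2.1 (a l).2.2.1 m x := fun x l => by
    induction l with
    | zero => simp [e0]
    | succ l ih =>
      rw [sum_range_succ, sum_range_succ, Nat.cast_succ]
      linarith [m10 l x]
  refine ⟨(a N).1, (a N).2.1, t, fun x k => tt (a k).1 (t k) m x, m1 N, m2 N, m3 N, m7, m8,
    fun x h => ⟨u3 x h N, fun k => (m9 k x h).2.2⟩, fun x => ⟨?_, sum_le_sum fun k hk =>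
      sum_le_sum fun j _ => ?_, le_trans (le_of_eq ?_) ((u4 x N).trans ?_)⟩⟩
  · obtain ⟨F, f1, f2⟩ := exists_frame (m1 N) x
    rw [← f2]
    simp only [u2, sum_add_distrib, f1, ← sq]
    refine le_trans (le_of_eq ?_) (le_add_of_nonneg_left (sum_nonneg fun l _ => hg.g_nonneg x _))
    conv_rhs => rw [sum_comm]
    exact sum_congr rfl fun _ _ => sum_comm
  · rw [← m6]
    exact ip_mono (m1 _) (m1 N) (u1 _ _ (mem_range.1 hk)) _ _
  · have : ∑ j ∈ range m, V j x * K₀ j x = 0 := sum_eq_zero fun j _ => by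
      by_cases h : K₀ j x = 0
      · rw [h, mul_zero]
      · rw [le_antisymm (hS j x h).2 (hV j x (hS j x h).1), zero_mul]
    rw [SS, this, mul_zero, add_zero]
  · refine sub_le_self _ (mul_nonneg a0 (add_nonneg (sum_nonneg fun j _ =>
      fi_nonneg (m1 N) ((m4 N).nn j x)) (mul_nonneg (by linarith) (sum_nonneg fun j _ => ?_))))
    by_cases h : (a N).2.2.1 j x = 0
    · rw [h, mul_zero]
    · exact mul_nonneg (hV j x (m5 N j x h).1) ((m4 N).nn j x)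

/-- the amplitudes of a round -/
theorem amp (hg : Met g) {t : ℕ → ℕ → X → ℝ} {N m : ℕ} {τ s r₀ d : ℝ} (τ0 : 0 < τ)
    (sN : N * s = τ) (r1 : r₀ ≤ s / 16) (d0 : 0 < d) (hd : m * (4 * d ^ 2) ≤ s / 64)
    (ht : ∀ k j, Smooth (t k j)) (h0 : ∀ k, ∀ j < m, ∀ x, 0 < t k j x) :
    ∃ b : Fin N × Fin m → X → ℝ, (∀ i, Smooth (b i)) ∧ ∀ x, (∀ i, t i.1 i.2 x ≤ d → b i x = 0) ∧
      ∑ k ∈ range N, rr r₀ (t k) m x ≤ τ * (∑ i, b i x ^ 2 + 5 / 64) ∧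
      En g b x ≤ 9 * DD ^ 2 * (∑ k ∈ range N, ∑ j ∈ range m, ip g (t k j) (t k j) x) / τ := by
  obtain ⟨ζ, sζ, ζ0, ζ1, ζ2⟩ := zeta d0
  have e1 : ∀ F : ℕ → ℕ → ℝ, ∑ i : Fin N × Fin m, F i.1 i.2 =
      ∑ k ∈ range N, ∑ j ∈ range m, F k j := fun F => by
    simp only [Fintype.sum_prod_type, sum_range]
  have e2 : (√τ)⁻¹ ^ 2 = τ⁻¹ := by rw [inv_pow, Real.sq_sqrt τ0.le]
  refine ⟨fun i x => (√τ)⁻¹ * ζ (t i.1 i.2 x), fun i => CD.mul cd_const (sζ.compM (ht _ _)),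
    fun x => ⟨fun i h => by simp only [ζ0 _ h, mul_zero], ?_, ?_⟩⟩
  · have h1 : ∀ k ∈ range N, rr r₀ (t k) m x ≤ ∑ j ∈ range m, ζ (t k j x) ^ 2 + 5 / 64 * s :=
      fun k _ => by
        have := sum_le_sum fun j hj => ζ1 _ (h0 k j (mem_range.1 hj) x)
        simp only [sum_add_distrib, sum_const, card_range, nsmul_eq_mul] at this
        rw [rr]
        linarith
    refine (sum_le_sum h1).trans_eq ?_
    simp only [mul_pow, e2, ← mul_sum, e1 fun k j => ζ (t k j x) ^ 2, sum_add_distrib,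
      sum_const, card_range, nsmul_eq_mul]
    rw [mul_add, mul_inv_cancel_left₀ τ0.ne', ← sN]
    ring
  · rw [mul_div_right_comm]
    simp only [← e1 fun k j => ip g (t k j) (t k j) x, mul_sum]
    refine sum_le_sum fun i _ => ?_
    obtain ⟨y, y1, y2⟩ := ζ2 (t i.1 i.2 x)
    rw [ip_comp (y1.const_mul _) (y1.const_mul _) ((ht _ _).diff x) ((ht _ _).diff x)]
    refine mul_le_mul_of_nonneg_right ?_ (hg.ip_nonneg _ _)
    rw [mul_mul_mul_comm, ← sq, e2, div_eq_inv_mul]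
    gcongr

theorem par {τ s₀ Q a : ℝ} (τ0 : 0 < τ) (s0 : 0 < s₀) (hQ : 0 ≤ Q) (a0 : 0 < a) :
    ∃ (N : ℕ) (s : ℝ), 0 < N ∧ 0 < s ∧ s ≤ s₀ ∧ N * s = τ ∧ Q ≤ N * (a / s) / 16 := by
  obtain ⟨N, hN⟩ := exists_nat_ge (1 + τ / s₀ + 16 * τ * Q / a)
  have q1 : 0 ≤ τ / s₀ := by positivity
  have q2 : 0 ≤ 16 * τ * Q / a := by positivity
  have N1 : (1 : ℝ) ≤ N := by linarith
  have N0 : (0 : ℝ) < N := by linarith
  refine ⟨N, τ / N, Nat.cast_pos.1 N0, by positivity, ?_, mul_div_cancel₀ _ N0.ne', ?_⟩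
  · rw [div_le_iff₀ N0, mul_comm, ← div_le_iff₀ s0]
    linarith
  · have : 16 * τ * Q ≤ N * a := (div_le_iff₀ a0).1 (by linarith)
    rw [le_div_iff₀ (by norm_num), div_div_eq_mul_div, ← mul_div_assoc, le_div_iff₀ τ0]
    nlinarith [mul_le_mul_of_nonneg_left N1 (by positivity : 0 ≤ N * a)]

theorem small {a b c : ℝ} (ha : 0 < a) (hb : 0 ≤ b) (hc : 0 < c) :
    ∃ α > (0 : ℝ), α ≤ a ∧ α * b ≤ c :=
  ⟨min a (c / (b + 1)), by positivity, min_le_left _ _, (mul_le_mul (min_le_right _ _)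
    (le_add_of_nonneg_right zero_le_one) hb (by positivity)).trans_eq
      (div_mul_cancel₀ _ (by positivity))⟩

theorem round_of (H : P210R.SWEEP) (n : ℕ) (hn : 2 ≤ n) : ROUND n := by
  have d1 : 1 ≤ DD ^ 2 := one_le_pow₀ DD_ge
  obtain ⟨δ, δ0, δ1, c, c0, θ, θ0, C, C0, α₀, α0, H⟩ :=
    H n hn (60 * (9 * DD ^ 2) ^ 2) (by nlinarith)
  refine ⟨δ, δ0, C + 640 * DD ^ 2 * (9 * DD ^ 2 * n), by positivity, θ, θ0, fun X _ _ g v hg hv J _
    Λ U V hP A _ lab p hp U' _ hU B O j₀ hB hO hBO hj τ τ0 ε ε0 κ => ?_⟩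
  set C' := C + 640 * DD ^ 2 * (9 * DD ^ 2 * n) with hC'
  obtain ⟨m, k₀, U₀, V₀, K₀, lb, hP₀, hD, hS, hE, hl, hk⟩ := start hg hP hp j₀
  obtain ⟨E, E0, hE'⟩ := En_bd hg hp.sm
  obtain ⟨χ, sχ, -, tχ, -, χ1⟩ := exists_cut hB.isCompact hO hBO
  obtain ⟨α, a0, a1, a2⟩ := small α0 E0 (half_pos ε0)
  have hUU : ∀ j, U j ⊆ U' j := fun j => subset_closure.trans (hU j)
  obtain ⟨s₀, s0, H⟩ := H X g Λ U₀ V₀ K₀ m k₀ (fun x => 4 * χ x) E α hg hP₀ hD hS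
    (fun x => (hE x).trans (hE' x)) (CD.mul cd_const sχ) (fun k h x hx => by
      rw [image_eq_zero_of_notMem_tsupport fun h' =>
        hj _ (hk k h x hx) x (hUU _ (hl k hx)) (tχ h'), mul_zero]) a0 a1
  obtain ⟨N, s, N0, s1, s2, sN, hq⟩ := par (Q := 32 * δ * τ * (C' / τ + E) ^ 2 + |κ|)
    (a := c * α ^ 2) τ0 s0 (by positivity) (by positivity)
  obtain ⟨r₀, r0, r1, H⟩ := H s s1 s2 (ε / 2 / N) (by positivity)
  obtain ⟨d, d0, d2, d3⟩ := small (b := 4 * m) (c := s / 64) one_pos (by positivity) (by positivity)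
  obtain ⟨G, v', t, T, m1, m2, m3, m7, m8, m9, m10⟩ := chain (c := 60 * (9 * DD ^ 2) ^ 2 * δ)
    (b := c * α ^ 2 / s) (L := fun x => C * s * Λ x) (L' := fun x => δ * s * P210R.En g K₀ m x ^ 2)
    hg hv hD hS hP₀.nn δ1 a0.le (H d d0) N
  clear H
  obtain ⟨b, sb, hb⟩ := amp m1 τ0 sN r1 d0 (le_trans (by
    rw [show (m : ℝ) * (4 * d ^ 2) = d * (d * (4 * m)) by ring]
    exact mul_le_of_le_one_left (by positivity) d2) d3) m7 fun k j h x => (m8 k j h x).1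
  obtain ⟨φ, p', o1, o2, o⟩ := out m1 sb hp.sm hp.one
  have u9 : ∀ x, 640 * DD ^ 2 * En G b x ≤ C' / τ := fun x => by
    rw [hC', add_div, mul_div_assoc]
    refine le_add_of_nonneg_of_le (by positivity) ?_
    gcongr
    refine (hb x).2.2.trans ?_
    gcongr
    exact (m10 x).1
  have r2 : ∀ x k, 0 < rr r₀ (t k) m x := fun x k => by rw [rr]; positivity
  have b1 : ∀ x ∈ B, 4 ≤ 4 * χ x := fun x hx => by rw [(χ1 x hx).self_of_nhds, mul_one]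
  refine ⟨G, v', φ, (Fin N × Fin m) ⊕ A, inferInstance, Sum.elim (fun i => lb i.2) lab, p',
    ⟨m1, m3, m2, o1, fun x hx => ⟨(m9 x (b1 x hx)).1.1, (m9 x (b1 x hx)).1.2, ?_⟩,
      fun x => (o x).1.1, fun x => (o x).1.2, fun x => (o x).2.2.2.2.1.trans (u9 x)⟩,
    ⟨o2, fun x => (o x).2.1, ?_⟩, fun x => ?_⟩
  · have := card_nsmul_le_sum (range N) _ _ fun k _ => (m9 x (b1 x hx)).2 k
    rw [card_range, nsmul_eq_mul, mul_left_comm, sN] at this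
    refine (o x).2.2.2.2.2.2.1 (le_of_mul_le_mul_left ?_ τ0)
    linarith [(hb x).2.1]
  · rintro (i | i) x h
    · exact hUU _ (hl _ (by_contra fun h' => (o x).2.2.1 i h
        ((hb x).1 i ((m8 _ _ i.2.2 x).2 h'))))
    · exact hUU _ (hp.sup _ _ ((o x).2.2.2.1 i h)).1
  obtain ⟨⟨o3, o4⟩, -, -, -, -, o5, o6, o7, o8⟩ := o x
  obtain ⟨-, u5, u7⟩ := hb x
  obtain ⟨-, u6, w6⟩ := m10 x
  have w0 := En_nonneg m1 p' x
  have w1 : En G p' x ≤ C' / τ + En g p x := o5.trans (add_le_add (u9 x) (En_mono hg m1 m2 p x))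
  refine ⟨w1, fun h => (o8 (o7 h)).trans (le_trans ?_ (u9 x)), ?_⟩
  · have := En_nonneg m1 b x
    rw [div_eq_inv_mul]
    gcongr
    exact (inv_le_of_inv_le₀ two_pos (by linarith only [o7 h])).trans (by linarith only [d1])
  have w2 : α * P210R.En g K₀ m x ≤ ε / 2 :=
    (mul_le_mul_of_nonneg_left ((hE x).trans (hE' x)) a0.le).trans a2
  have w4 : N * (C * s * Λ x + δ * s * P210R.En g K₀ m x ^ 2 + ε / 2 / N) ≤
      C' * τ * Λ x + δ * τ * En g p x ^ 2 + ε / 2 := by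
    have h1 : 0 ≤ P210R.En g K₀ m x := sum_nonneg fun j _ => fi_nonneg hg (hD.nn j x)
    have h2 := hP.l0 x
    calc _ = C * (N * s) * Λ x + δ * (N * s) * P210R.En g K₀ m x ^ 2 + ε / 2 := by field_simp
      _ ≤ _ := by
        rw [sN]
        gcongr
        exacts [le_add_of_nonneg_right (by positivity), hE x]
  rcases le_total (5 / 8) (∑ i, b i x ^ 2) with h | h
  · have w7 := mul_le_mul_of_nonneg_left (gain1 N0 τ0 h (r2 x) (sum_nonneg fun k _ => sum_nonneg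
      fun j _ => m1.ip_nonneg _ _) u6 u5 w0 ((o8 (by linarith only [h])).trans (by gcongr))) δ0.le
    have w8 : 0 ≤ ∑ k ∈ range N, if rr r₀ (t k) m x ≤ 3 / 4 * s then c * α ^ 2 / s else 0 :=
      sum_nonneg fun k _ => by split_ifs <;> positivity
    rw [o6 h]
    linarith only [w2, w4, w6, w7, w8]
  · have w7 := gain2 (a := c * α ^ 2 / s) s1 (by positivity) (r2 x)
      (u5.trans (by rw [sN]; gcongr))
    have w8 : κ * φ x ≤ |κ| := (mul_le_mul_of_nonneg_right (le_abs_self κ) o3).trans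
      (mul_le_of_le_one_right (abs_nonneg κ) o4)
    have w9 : 32 * δ * τ * En G p' x ^ 2 ≤ 32 * δ * τ * (C' / τ + E) ^ 2 := by
      gcongr
      linarith only [hE' x, w1]
    have w5 : 0 ≤ 60 * (9 * DD ^ 2) ^ 2 * δ * ∑ k ∈ range N, T x k ^ 2 / rr r₀ (t k) m x :=
      mul_nonneg (by positivity) (sum_nonneg fun k _ => div_nonneg (sq_nonneg _) (r2 x k).le)
    linarith only [w2, w4, w5, w6, w7, w8, w9, hq]

end Vale.Agent.P210A
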