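import Vale.Agent.P210A.Round
import Vale.Agent.P210R.Sta

/-!
# P210A: `SWEEP` from its pieces (helper45)
-/

open Finset Filter Topology Real
open scoped ContDiff
open Vale.Agent.P366M Vale.Agent.P366M.Y.C Vale.Agent.P210G Vale.Agent.P210R
open Vale.Agent.P210S (Pot ip_mono up_trans)
open Vale.Agent.P366M.Gr (nv)
open Vale.Agent.P210U (Up)
open Vale.Agent.P366H (s1 hd0 s1_zero sm_st)

noncomputable section

namespace Vale.Agent.P210A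

/-- the absolute constants -/
theorem par1 {n A C : ℝ} (hn : 1 ≤ n) (hA : 1 ≤ A) (hC : 1 ≤ C) : ∃ a δ c γ : ℝ, 0 < δ ∧ 0 < c ∧
    16 * δ ≤ a ∧ 4 * A * δ ≤ a ∧ a ≤ 1 / 100 ∧ 1000 * a ^ 2 ≤ δ * (c / (4 * n)) ∧ C * n * c ≤ 1 ∧
    γ = C * (c + c ^ 2 / (δ / 100)) ∧ 64 * γ ^ 2 ≤ a := by
  set M := 64000 * n * A with hM
  have M1 : 1 ≤ M := by nlinarith
  set Γ := C * n * (M + 1600 * A * M ^ 2) with hΓ
  have h1 : C * n * M ≤ Γ := by
    rw [hΓ]; gcongr; exact le_add_of_nonneg_right (by positivity)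
  have h2 : 1 ≤ C * n * M := one_le_mul_of_one_le_of_one_le (by nlinarith) M1
  obtain ⟨a, a0, a1, a2⟩ := small (a := 1 / 100) (b := 64 * Γ ^ 2) (c := 1) (by norm_num)
    (by positivity) one_pos
  have e : C * (M * a + (M * a) ^ 2 / (a / (16 * A) / 100)) =
      C * (M + 1600 * A * M ^ 2) * a := by field_simp; ring
  have h3 : C * (M + 1600 * A * M ^ 2) ≤ Γ := by
    rw [hΓ]; gcongr; exact le_mul_of_one_le_right (by linarith) hn
  refine ⟨a, a / (16 * A), M * a, _, by positivity, by positivity, ?_, ?_, a1, le_of_eq ?_, ?_, rfl,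
    ?_⟩
  · rw [← mul_div_assoc, div_le_iff₀ (by positivity)]; nlinarith
  · rw [← mul_div_assoc, div_le_iff₀ (by positivity)]; nlinarith
  · rw [hM]; field_simp; ring
  · nlinarith [mul_le_mul_of_nonneg_left h1 a0.le, mul_nonneg a0.le (sq_nonneg (Γ - 1))]
  · rw [e]
    calc _ ≤ 64 * (Γ * a) ^ 2 := by gcongr
      _ = a * (a * (64 * Γ ^ 2)) := by ring
      _ ≤ _ := mul_le_of_le_one_right a0.le a2

variable {n : ℕ} {X : Type} [Mf0 n X] {g g₀ : Fld n X} {U : ℕ → Set X} {V K p : ℕ → X → ℝ}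
  {ϱ Λ : X → ℝ} {m j₀ : ℕ} {h : ℝ} {x : X}

theorem REn_nn (hg : Met g) (hK : Dis K m) (x : X) : 0 ≤ En g K m x :=
  sum_nonneg fun j _ => fi_nonneg hg (hK.nn j x)

theorem REn_le (hg : Met g₀) (hg' : Met g) (u : Up g₀ g) (hK : Dis K m) (x : X) :
    En g K m x ≤ En g₀ K m x := sum_le_sum fun j _ =>
  div_le_div_of_nonneg_right (ip_mono hg hg' u _ x) (by linarith [hK.nn j x])

/-- only the label `j₀` lives on `0 < ϱ` -/
theorem lone (hϱ : ∀ j ≠ j₀, ∀ x ∈ U j, ϱ x ≤ 0) (hK : Dis K m) (hS : Sup U V K h) (hx : 0 < ϱ x) :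
    j₀ < m ∧ K j₀ x = 1 ∧ ∀ j ≠ j₀, K j x = 0 := by
  have h1 : ∀ j ≠ j₀, K j x = 0 := fun j hj => by_contra fun h' =>
    (hϱ j hj x (hS j x h').1).not_gt hx
  have h2 : j₀ < m := by_contra fun h' => by
    have := hK.one x
    rw [sum_eq_zero fun j hj => h1 j fun e => h' (e ▸ mem_range.1 hj)] at this
    exact zero_ne_one this
  exact ⟨h2, by rw [← hK.one x, sum_eq_single_of_mem _ (mem_range.2 h2) fun j _ => h1 j], h1⟩

theorem SS_out {δ α : ℝ} {v : Fin n → X → ℝ} (sϱ : Smooth ϱ) (hϱ : ∀ j ≠ j₀, ∀ x ∈ U j, ϱ x ≤ 0)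
    (hK : Dis K m) (hS : Sup U V K h) (hx : 0 < ϱ x) (hV : V j₀ x = 0) :
    SS δ α V g v K m x = Rv g v x := by
  have e : ∀ᶠ y in 𝓝 x, 0 < ϱ y := sϱ.cont.continuousAt.eventually (lt_mem_nhds hx)
  have h1 : ∀ j, fi g (K j) x = 0 := fun j => by
    have : K j =ᶠ[𝓝 x] fun _ => K j x := e.mono fun y hy => by
      by_cases hj : j = j₀
      · rw [hj, (lone hϱ hK hS hy).2.1, (lone hϱ hK hS hx).2.1]
      · rw [(lone hϱ hK hS hy).2.2 j hj, (lone hϱ hK hS hx).2.2 j hj]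
    rw [fi, ip_congr this this, ip_const_left, zero_div]
  have h2 : ∀ j, V j x * K j x = 0 := fun j => by
    by_cases hj : j = j₀
    · rw [hj, hV, zero_mul]
    · rw [(lone hϱ hK hS hx).2.2 j hj, mul_zero]
  simp [SS, En, h1, h2]

/-- the new distribution -/
theorem newK (hM : MIX) (hB : MIXB) {θ a α s η d δ r₀ e : ℝ} {h' ε : ℕ → ℝ} {W t κ : ℕ → X → ℝ}
    {vs : ℕ → Fin n → X → ℝ} (S : Swp g₀ ϱ Λ U V K m θ a α s η d g h' ε W t κ vs) (hp : Dis p m)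
    (hS : Sup U V p 0) (hV : ∀ j, ∀ x ∈ U j, 0 ≤ V j x) (l0 : ∀ x, 0 ≤ Λ x) (r0 : 0 < r₀)
    (s0 : 0 < s) (a0 : 0 < α) (δ0 : 0 < δ) (δ2 : δ ≤ 2) (e0 : 0 < e) (θ0 : 0 ≤ θ) (d0 : 0 < d)
    (η0 : 0 ≤ η) (η1 : η ≤ 1) (hd : 8 * m * d ≤ η * √r₀) : ∃ (K' : ℕ → X → ℝ) (h : ℝ), Dis K' m ∧
      Sup U V K' h ∧ ∀ x r Xs z L, r = rr r₀ t m x → Xs = ∑ j ∈ range m, W j x * t j x ^ 2 →
      z = 2 * δ * (Xs + e) * s / (α * (s + r)) → L = ip (gs g t m) (ff r₀ t m) (ff r₀ t m) x →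
      L ≤ tt g t m x / r ∧
      α * (En (gs g t m) K' m x + (2 - δ) * ∑ j ∈ range m, V j x * K' j x) ≤
        (1 + η) * (α * (tt g t m x / r) + (2 - δ) * α * (Xs / (r * (1 + z))) +
          α * ((r₀ + z * r) / (r * (1 + z)) * En g₀ p m x) + 2 * δ * Λ x * s) - α / 2 * L +
          16 * δ * ∑ j ∈ range m, W j x * ip (gs g t m) (t j) (t j) x +
          4 * δ * θ * ∑ j ∈ range m, (W j x * t j x) ^ 2 := by
  have hG := met_gs S.met S.smt m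
  have u : Up g₀ (gs g t m) := up_trans S.up (up_gs m)
  obtain ⟨Y, hY⟩ : ∃ Y : X → ℝ, Y = fun y => 2 * δ * (∑ j ∈ range m, W j y * t j y ^ 2 + e) * s *
    rr r₀ t m y / (α * (s + rr r₀ t m y)) := ⟨_, rfl⟩
  have hB := fun x => hB n X (gs g t m) t W m r₀ s α δ e θ (Λ x) x hG S.smt S.smW S.W0 r0 s0 a0 δ0
    e0 θ0 (l0 x) (fun j hj => (ip_mono S.m0 hG u _ x).trans ((S.pst j hj).gW x)) Y hY
  obtain ⟨K', k1, k2, k3⟩ := hM n X (gs g t m) t p m Y r₀ d η hG S.smt S.t0 hp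
    (cd_of_cAt le_rfl fun x => CD.contDiffAt (hB x).1) (fun x => (hB x).2.1 x) r0 d0 η1 hd
  have k4 : ∀ j < m, ∀ x, K' j x ≠ 0 → x ∈ U j ∧ (V j x ≤ h' j ∨ V j x = 0) := fun j hj x h => by
    by_cases h1 : p j x = 0
    · have := by_contra fun h2 => h (k2 j x ((S.pst j hj).out x h2) h1)
      exact ⟨this.1, .inl this.2⟩
    · exact ⟨(hS j x h1).1, .inr (le_antisymm (hS j x h1).2 (hV j x (hS j x h1).1))⟩
  have e1 : ∀ {F : ℕ → (X → ℝ) → ℝ}, ∑ j ∈ range m, F j (if j < m then K' j else 0) =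
      ∑ j ∈ range m, F j (K' j) := sum_congr rfl fun j hj => by rw [if_pos (mem_range.1 hj)]
  refine ⟨fun j => if j < m then K' j else 0, ∑ j ∈ range m, |h' j|, ⟨fun j => ?_, fun j x => ?_,
    fun x => (e1 (F := fun _ K => K x)).trans (k1.one x)⟩, fun j x h => ?_, ?_⟩
  · split_ifs
    exacts [k1.sm j, cd_const]
  · split_ifs
    exacts [k1.nn j x, le_rfl]
  · by_cases hj : j < m
    · simp only [if_pos hj] at h
      have := single_le_sum (fun j _ => abs_nonneg (h' j)) (mem_range.2 hj)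
      refine ⟨(k4 j hj x h).1, le_trans ?_ this⟩
      rcases (k4 j hj x h).2 with h1 | h1
      exacts [h1.trans (le_abs_self _), h1.le.trans (abs_nonneg _)]
    · simp [hj] at h
  rintro x r Xs z L hr hX hz hL
  obtain ⟨-, y0, b1, b2⟩ := hB x
  obtain ⟨k5, k6⟩ := k3 x
  have r1 : 0 < r := by rw [hr, rr]; positivity
  have eY : Y x = z * r := by simp only [hY, hz, hX, hr]; ring
  have eR : rr r₀ t m x + Y x = r * (1 + z) := by rw [eY, hr]; ring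
  have R0 : 0 < r * (1 + z) := by rw [← eR, ← hr]; linarith [y0 x]
  have k7 : ∑ j ∈ range m, V j x * K' j x ≤ (1 + η) * (Xs / (r * (1 + z))) := by
    rw [hX, sum_div, mul_sum]
    refine sum_le_sum fun j hj => ?_
    have w0 := S.W0 j x
    by_cases h : K' j x = 0
    · rw [h, mul_zero]; positivity
    obtain ⟨h1, h2 | h2⟩ := k4 j (mem_range.1 hj) x h
    · have h3 : V j x * p j x = 0 := by
        by_cases h4 : p j x = 0
        · rw [h4, mul_zero]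
        · rw [le_antisymm (hS j x h4).2 (hV j x h1), zero_mul]
      calc _ ≤ V j x * _ := mul_le_mul_of_nonneg_left (k5 j) (hV j x h1)
        _ = (1 + η) * ((V j x * t j x ^ 2 + (r₀ + Y x) * (V j x * p j x)) / (r * (1 + z))) := by
          rw [eR]; ring
        _ ≤ _ := by
          rw [h3, mul_zero, add_zero]
          gcongr
          exact (S.pst j (mem_range.1 hj)).new x h1 h2
    · rw [h2, zero_mul]; positivity
  have k8 : (r₀ + Y x) / (rr r₀ t m x + Y x) * En (gs g t m) p m x ≤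
      (r₀ + z * r) / (r * (1 + z)) * En g₀ p m x := by
    rw [eR, ← eY]
    exact mul_le_mul_of_nonneg_left (REn_le S.m0 hG u hp x) (by have := y0 x; positivity)
  have L0 : 0 ≤ L := hL ▸ hG.ip_nonneg _ _
  have W1 : 0 ≤ ∑ j ∈ range m, W j x * ip (gs g t m) (t j) (t j) x :=
    sum_nonneg fun j _ => mul_nonneg (S.W0 j x) (hG.ip_nonneg _ _)
  have W2 : 0 ≤ ∑ j ∈ range m, (W j x * t j x) ^ 2 := by positivity
  refine ⟨hL ▸ hr ▸ b1, ?_⟩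
  rw [En, e1 (F := fun _ K => fi (gs g t m) K x), e1 (F := fun j K => V j x * K x), ← En]
  rw [← hL, ← hr] at b2
  rw [← hr] at k6 k8
  have p1 := mul_le_mul_of_nonneg_left k6 a0.le
  have p2 := mul_le_mul_of_nonneg_left k7 (mul_nonneg a0.le (sub_nonneg.2 δ2))
  have p3 := mul_le_mul_of_nonneg_left (add_le_add b2 (mul_le_mul_of_nonneg_left k8 a0.le))
    (add_nonneg zero_le_one η0)
  have p4 := mul_nonneg (mul_nonneg a0.le η0) L0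
  have p5 := mul_nonneg (mul_nonneg δ0.le (sub_nonneg.2 η1)) W1
  have p6 := mul_nonneg (mul_nonneg (mul_nonneg δ0.le θ0) (sub_nonneg.2 η1)) W2
  rw [tt]
  linarith

/-- the cut-off function of the drift -/
theorem cutf [CompactSpace X] (hg : Met g₀) (sϱ : Smooth ϱ) : ∃ (χ : X → ℝ) (B : ℝ), Smooth χ ∧
    0 ≤ B ∧ (∀ x, 0 ≤ χ x ∧ χ x ≤ 1) ∧ (∀ x, ϱ x ≤ 2 → χ x = 1 ∧ ip g₀ χ χ x ≤ 0) ∧
    (∀ x, 5 / 2 ≤ ϱ x → χ x = 0) ∧ ∀ x, ip g₀ χ χ x ≤ B := by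
  have sχ : Smooth fun x => smoothTransition (5 - 2 * ϱ x) :=
    sm_st.compM (CD.sub cd_const (CD.mul cd_const sϱ))
  obtain ⟨B, hB⟩ := isCompact_univ.bddAbove_image (hg.sm_ip sχ sχ).cont.continuousOn
  refine ⟨_, max B 0, sχ, le_max_right _ _, fun x => ⟨smoothTransition.nonneg _,
    smoothTransition.le_one _⟩, fun x h => ⟨smoothTransition.one_of_one_le (by linarith), ?_⟩,
    fun x h => smoothTransition.zero_of_nonpos (by linarith),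
    fun x => (hB ⟨x, trivial, rfl⟩).trans (le_max_left _ _)⟩
  have d : DAt (fun x => 5 - 2 * ϱ x) x := ((sϱ.diff x).const_mul 2).const_sub 5
  rw [ip_comp (hd0 _) (hd0 _) d d, s1_zero (.inr (by linarith))]
  simp

/-- the inequalities between the parameters -/
structure Par (n A C a δ c γ α s η r₀ e ι B B' m : ℝ) : Prop where
  n1 : 1 ≤ n
  A1 : 1 ≤ A
  C1 : 1 ≤ C
  a0 : 0 < a
  δ0 : 0 < δ
  c0 : 0 < c
  q1 : 16 * δ ≤ a
  q2 : 4 * A * δ ≤ a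
  q3 : a ≤ 1 / 100
  q4 : 1000 * a ^ 2 ≤ δ * (c / (4 * n))
  q5 : C * n * c ≤ 1
  q6 : γ = C * (c + c ^ 2 / (δ / 100))
  q7 : 64 * γ ^ 2 ≤ a
  α0 : 0 < α
  s0 : 0 < s
  η0 : 0 < η
  r0 : 0 < r₀
  e0 : 0 < e
  e1 : e ≤ α
  i0 : 0 < ι
  i1 : ι ≤ 1 / 10
  i2 : ι ≤ s / 8
  B0 : 0 ≤ B'
  m0 : 0 ≤ m
  s1 : 10000 * s * B ≤ δ * α
  r2 : r₀ * (4 * α * B / s) ≤ η / 4
  e2 : e * (4 * δ * B) ≤ η / 4
  i3 : ι * (α * m / r₀ + 20 * α ^ 2 / (δ * r₀) + 2 * m * α / s + m + C * c * (m ^ 2 / α) * B' +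
    A * δ * (m ^ 2 / r₀)) ≤ η / 2

variable {n' A C a δ c γ α s η r₀ e ι B B' m' : ℝ}

theorem Par.inn (Q : Par n' A C a δ c γ α s η r₀ e ι B B' m') (hA : ALG)
    {r Λ E S A₀ T X b P Y D G H q L Z σ R R' F : ℝ} (r3 : r₀ ≤ r) (l0 : 0 ≤ Λ) (E0 : 0 ≤ E)
    (E1 : E ≤ B) (T0 : 0 ≤ T) (X0 : 0 ≤ X) (b0 : 0 ≤ b) (Y0 : 0 ≤ Y) (Z0 : 0 ≤ Z) (L0 : 0 ≤ L)
    (G0 : 0 ≤ G) (G1 : A₀ ≤ 4 * α → c / (4 * n') * A₀ ^ 2 / r ≤ G) (S1 : S ≤ m')
    (h : T ≤ S ∧ A₀ ≤ S ∧ S ≤ 2 * A₀ ∧ X ^ 2 ≤ b * r ∧ A₀ ^ 2 ≤ Y * r ∧ 0 ≤ q)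
    (t7 : 0 ≤ P) (t8 : 0 ≤ (1 - a) * A₀ + (1 - δ) * X + α * (s - r) / (2 * s) →
      ((1 - a) * A₀ + (1 - δ) * X + α * (s - r) / (2 * s)) ^ 2 ≤ P * r) (t9 : D ≤ 2 * Λ / a * r)
    (t10 : D ≤ α / (4 * s) * (S + X)) (t11 : H ≤ 2 * P + 8 * b)
    (t12 : σ + q + P + (2 * δ - δ ^ 2 - 2 * (a * δ / 40) / a) * b + a * Z + 2 * (1 - a) * a * Y +
      α / s * S + (2 - δ) * α * X / s - D - 2 * m' * α * ι / s ≤ R)
    (b3 : R + G - q / 2 - δ / 100 * Y - δ / 100 * H - γ * α * L ≤ R') {z : ℝ}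
    (hz : z = 2 * δ * (X + e) * s / (α * (s + r)))
    (k3 : F ≤ (1 + ι) * (α * (T / r) + (2 - δ) * α * (X / (r * (1 + z))) +
      α * ((r₀ + z * r) / (r * (1 + z)) * E) + 2 * δ * Λ * s) - α / 2 * L + 16 * δ * Z +
      4 * δ * (a * δ / 40) * b) :
    σ + A * δ * (T ^ 2 / r) + (if r ≤ 3 / 4 * s then δ / 2000 * α ^ 2 / s else 0) -
      (4 / a + 4) * s * Λ - δ * s * E ^ 2 - η ≤ R' - F := by
  obtain ⟨n1, A1, C1, a0, δ0, c0, q1, q2, q3, q4, q5, -, q7, α0, s0, -, r0, e0, e1, i0, i1, -, B0,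
    m0, s1, r2, e2, i3⟩ := Q
  obtain ⟨t1, t2, t3, t4, t5, t6⟩ := h
  have t14 : c / (4 * n') ≤ 1 := by
    rw [div_le_one (by positivity)]
    linarith only [q5, n1, le_mul_of_one_le_left c0.le (one_le_mul_of_one_le_of_one_le C1 n1)]
  have := hA r s α δ a (c / (4 * n')) Λ E B e ι r₀ m' A S A₀ T X b P Y D G z r0 r3 s0 α0 δ0 q1
    (zero_le_one.trans A1) q2 q3 q4 t14 l0 E0 E1 e0.le e1 i0.le i1 s1 T0 t1 (t1.trans S1) t2 t3 X0
    b0 t4 t5 t7 t8 t9 t10 G0 G1 hz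
  have p1 := mul_le_mul_of_nonneg_left t11 δ0.le
  have p2 := mul_nonneg (sub_nonneg.2 q1) Z0
  have p3 : γ * α * L ≤ 1 / 2 * α * L := by
    gcongr
    nlinarith only [q7, q3]
  have p4 : 0 ≤ (2 * (1 - a) * a - δ / 100 - a) * Y :=
    mul_nonneg (by nlinarith only [q1, q3, a0, δ0]) Y0
  have p5 : 0 ≤ (2 * δ - δ ^ 2 - 2 * (a * δ / 40) / a - 8 * δ / 100 - 4 * δ * (a * δ / 40) -
      9 / 5 * δ) * b := mul_nonneg (by
    rw [show 2 * (a * δ / 40) / a = δ / 20 by field_simp; norm_num]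
    nlinarith only [q1, q3, a0, δ0, mul_pos δ0 δ0, mul_le_mul_of_nonneg_left q3 (sq_nonneg δ)]) b0
  have p6 : 20 * ι ^ 2 * α ^ 2 / (δ * r₀) ≤ 20 * ι * α ^ 2 / (δ * r₀) := by
    gcongr
    nlinarith only [i0, i1]
  have j4 : 0 ≤ ι * (m' + C * c * (m' ^ 2 / α) * B' + A * δ * (m' ^ 2 / r₀)) := by positivity
  linear_combination this + b3 + t12 + k3 + 1 / 2 * t6 + 1 / 100 * p1 + p2 + p3 + p4 + p5 + p6 +
    i3 + r2 + e2 + j4

theorem Par.mid (Q : Par n' A C a δ c γ α s η r₀ e ι B B' m') (hO : ALGO)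
    {r J J' S A₀ T Y G H q L σ R R' I : ℝ} (r3 : r₀ ≤ r) (J0 : 0 ≤ J) (J1 : 0 ≤ J') (T0 : 0 ≤ T)
    (Y0 : 0 ≤ Y) (H0 : 0 ≤ H) (G0 : 0 ≤ G) (k4 : L ≤ T / r)
    (h : T ≤ S ∧ S ≤ 2 * A₀ ∧ A₀ ^ 2 ≤ Y * r ∧ 0 ≤ q ∧
      (r ≤ s → (α * (s - r) / (2 * s)) ^ 2 ≤ H * r) ∧ σ + q + (1 - a / 10) * H +
      (2 * (1 - a) * a - a / 10) * Y + α / s * S - m' * ι ≤ R)
    (hI : I = 0 ∨ 0 ≤ A₀ ∧ A₀ ≤ m' * ι ∧ 0 ≤ I ∧ I ≤ B')
    (b3 : R + G - q / 2 - δ / 100 * Y - δ / 100 * H - γ * α * L - C * c * (A₀ ^ 2 / α) * I ≤ R') :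
    σ + A * δ * (T ^ 2 / r) + (if r ≤ 3 / 4 * s then δ / 2000 * α ^ 2 / s else 0) - J - J' - η ≤
      R' := by
  obtain ⟨-, A1, C1, a0, δ0, c0, q1, q2, q3, -, -, q6, q7, α0, s0, η0, r0, -, -, i0, i1, -, B0,
    m0, -, -, -, i3⟩ := Q
  obtain ⟨t1, t2, t3, t4, t5, t6⟩ := h
  have := hO r s α δ a γ A S A₀ T Y H L (r0.trans_le r3) s0 α0 δ0 q1 (zero_le_one.trans A1) q2 q3
    (by rw [q6]; positivity) q7 T0 t1 t2 t3 k4 H0 t5
  have p1 : C * c * (A₀ ^ 2 / α) * I ≤ ι * (C * c * (m' ^ 2 / α) * B') := by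
    rcases hI with h | ⟨h1, h2, h3, h4⟩
    · rw [h, mul_zero]; positivity
    · calc _ ≤ C * c * ((m' * ι) ^ 2 / α) * B' := by gcongr
        _ = ι ^ 2 * (C * c * (m' ^ 2 / α) * B') := by ring
        _ ≤ _ := by
          gcongr
          nlinarith only [i0, i1]
  have p2 := mul_nonneg (show 0 ≤ 1 / 2 - a / 10 - δ / 100 by linarith only [q1, q3, δ0]) H0
  have p3 := mul_nonneg (show 0 ≤ 2 * (1 - a) * a - a / 10 - δ / 100 - 3 / 2 * a by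
    nlinarith only [q1, q3, a0, δ0]) Y0
  have j1 : 0 ≤ ι * (α * m' / r₀ + 20 * α ^ 2 / (δ * r₀) + 2 * m' * α / s +
    A * δ * (m' ^ 2 / r₀)) := by positivity
  linear_combination this + b3 + t6 + 1 / 2 * t4 + G0 + p1 + p2 + p3 + i3 + j1 + J0 + J1 +
    1 / 2 * η0

theorem Par.far (Q : Par n' A C a δ c γ α s η r₀ e ι B B' m') {r J J' T σ R : ℝ} (r3 : r₀ ≤ r)
    (J0 : 0 ≤ J) (J1 : 0 ≤ J') (T0 : 0 ≤ T) (h : T ≤ m' * ι ∧ s - ι ≤ r ∧ σ - m' * ι ≤ R) :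
    σ + A * δ * (T ^ 2 / r) + (if r ≤ 3 / 4 * s then δ / 2000 * α ^ 2 / s else 0) - J - J' - η ≤
      R := by
  obtain ⟨-, A1, C1, -, δ0, c0, -, -, -, -, -, -, -, α0, s0, η0, r0, -, -, i0, i1, i2, B0, m0, -, -,
    -, i3⟩ := Q
  obtain ⟨t1, t2, t3⟩ := h
  have p2 : A * δ * (T ^ 2 / r) ≤ ι * (A * δ * (m' ^ 2 / r₀)) :=
    calc _ ≤ A * δ * ((m' * ι) ^ 2 / r₀) := by gcongr
      _ = ι ^ 2 * (A * δ * (m' ^ 2 / r₀)) := by ring
      _ ≤ _ := by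
        gcongr
        nlinarith only [i0, i1]
  have j1 : 0 ≤ ι * (α * m' / r₀ + 20 * α ^ 2 / (δ * r₀) + 2 * m' * α / s +
    C * c * (m' ^ 2 / α) * B') := by positivity
  rw [if_neg (by linarith only [t2, i2, s0])]
  linear_combination t3 + p2 + i3 + j1 + J0 + J1 + 1 / 2 * η0

theorem par2 {β L : ℝ} (δ0 : 0 < δ) (α0 : 0 < α) : ∃ s₀ > (0 : ℝ), ∀ s, 0 < s → s ≤ s₀ →
    β ≤ α / (2 * s) ∧ (∀ l, 0 ≤ l → l ≤ L → 16 * s ^ 2 * l ≤ α ^ 2) ∧ 10000 * s * |B| ≤ δ * α := by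
  obtain ⟨s₀, s0, s1, s2⟩ := small (a := 1) (b := 2 * |β| / α + 16 * |L| / α ^ 2 +
    10000 * |B| / (δ * α)) (c := 1) one_pos (by positivity) one_pos
  refine ⟨s₀, s0, fun s s3 s4 => ?_⟩
  have s5 : s * (2 * |β| / α) ≤ 1 ∧ s * (16 * |L| / α ^ 2) ≤ 1 ∧
      s * (10000 * |B| / (δ * α)) ≤ 1 := by
    refine ⟨le_trans ?_ s2, le_trans ?_ s2, le_trans ?_ s2⟩ <;> gcongr <;>
      linarith [show 0 ≤ 2 * |β| / α by positivity, show 0 ≤ 16 * |L| / α ^ 2 by positivity,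
        show 0 ≤ 10000 * |B| / (δ * α) by positivity]
  simp only [← mul_div_assoc, div_le_one α0, div_le_one (pow_pos α0 2),
    div_le_one (mul_pos δ0 α0)] at s5
  refine ⟨?_, fun l l0 l1 => ?_, by linarith [s5.2.2]⟩
  · rw [le_div_iff₀ (by positivity)]
    linarith [s5.1, mul_le_mul_of_nonneg_left (le_abs_self β) s3.le]
  · calc _ = s * (s * (16 * l)) := by ring
      _ ≤ 1 * (s * (16 * |L|)) := by
        gcongr
        exacts [s4.trans s1, l1.trans (le_abs_self _)]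
      _ ≤ _ := by linarith only [s5.2.1]

theorem sweep_of (hD : DRIFT) (hP : PSTEP) (hM : MIX) (hB : MIXB) (hA : ALG) (hO : ALGO)
    (h1 : SW1) (hI : INNER) (hU : OUTER) : P210R.SWEEP := by
  obtain ⟨Cd, Cd1, hD⟩ := hD
  obtain ⟨Cp, Cp1, hP⟩ := hP
  intro n hn A A1
  have n1 : (1 : ℝ) ≤ n := Nat.one_le_cast.2 (by omega)
  obtain ⟨a, δ, c, γ, δ0, c0, q1, q2, q3, q4, q5, q6, q7⟩ := par1 n1 A1 Cd1
  have a0 : 0 < a := by linarith
  have a1 : a ≤ 1 := by linarith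
  have δ1 : δ ≤ 1 := by linarith
  have θ0 : 0 < a * δ / 40 / Cp := by positivity
  have θ1 : Cp * (a * δ / 40 / Cp) = a * δ / 40 := mul_div_cancel₀ _ (by linarith)
  refine ⟨δ, δ0, δ1, δ / 2000, by positivity, _, θ0, 4 / a + 4, by positivity,
    min (δ / 100) (1 / Cd), by positivity,
    fun X _ _ g₀ Λ U V p m j₀ ϱ B α m0 hV hp hS hE sϱ hϱ α0 α1 => ?_⟩
  rw [le_min_iff, le_div_iff₀' (by linarith : 0 < Cd)] at α1
  obtain ⟨β₀, hP⟩ := hP n X g₀ ϱ (a / 10) hn m0 sϱ (by positivity)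
  obtain ⟨χ, B', sχ, B0, χ0, χ1, χ2, χ3⟩ := cutf m0 sϱ
  obtain ⟨BΛ, hΛ⟩ := isCompact_univ.bddAbove_image hV.sml.cont.continuousOn
  obtain ⟨s₀, s0, s1⟩ := par2 (β := β₀) (L := BΛ) (B := B) δ0 α0
  refine ⟨s₀, s0, fun s s3 s4 η η0 => ?_⟩
  obtain ⟨s5, s6, s7⟩ := s1 s s3 s4
  obtain ⟨r₀, r0, r1, r2⟩ := small (a := s / 16) (b := 4 * α * |B| / s) (c := η / 4) (by positivity)
    (by positivity) (by positivity)
  obtain ⟨e, e0, e1, e2⟩ := small (b := 4 * δ * |B|) (c := η / 4) α0 (by positivity) (by positivity)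
  obtain ⟨ι, i0, i1, i2⟩ := small (a := min (1 / 10) (s / 8)) (b := α * m / r₀ +
    20 * α ^ 2 / (δ * r₀) + 2 * m * α / s + m + Cd * c * (m ^ 2 / α) * B' + A * δ * (m ^ 2 / r₀))
    (c := η / 2) (by positivity) (by positivity) (by positivity)
  rw [le_min_iff] at i1
  have Q : Par n A Cd a δ c γ α s η r₀ e ι |B| B' m := ⟨n1, A1, Cd1, a0, δ0, c0, q1, q2, q3, q4, q5,
    q6, q7, α0, s3, η0, r0, e0, e1, i0, i1.1, i1.2, B0, m.cast_nonneg, s7, r2, e2, i2⟩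
  refine ⟨r₀, r0, r1, fun d d0 g v K h hg hu hv hK hT => ?_⟩
  obtain ⟨d', d1, d2, d3⟩ := small (b := 8 * m) (c := ι * √r₀) d0 (by positivity) (by positivity)
  have V0 : ∀ y, 0 < ϱ y → V j₀ y = 0 := fun y hy => by
    have := hS j₀ y (by rw [(lone hϱ hp hS hy).2.1]; exact one_ne_zero)
    exact le_antisymm this.2 (hV.nn _ _ this.1)
  obtain ⟨h', ε, W, t, κ, vs, rfl, S⟩ := h1 n X g₀ ϱ Λ U V K m _ a α s ι d' g
    v m0 hg hu hv sϱ hK fun j hj g' v' b1 b2 b3 => hP _ s5 (by positivity) _ Λ U V j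
      (K j) h (1 - a) s ι d' g' v' θ0 hV (hK.sm j) (hK.nn j) (hT j) (by
        by_cases hj : j = j₀
        · subst hj
          refine .inr fun y hy => ⟨(hT j y ?_).1, V0 y hy, (lone hϱ hK hT hy).2.1⟩
          rw [(lone hϱ hK hT hy).2.1]
          exact one_ne_zero
        · exact .inl fun y hy h => (hϱ j hj y h).not_gt hy) (sub_nonneg.2 a1) (sub_le_self _ a0.le)
        s3 i0 d1 b1 b2 b3
  rw [θ1] at S
  obtain ⟨K', h'', k1, k2, k3⟩ := newK hM hB S hp hS hV.nn hV.l0 r0 s3 α0 δ0 (δ1.trans one_le_two)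
    e0 (by positivity) d1 i0.le (by linarith only [i1.1]) (by linarith only [d3])
  obtain ⟨b, b1, b2, b3⟩ := hD n X g t m χ (1 - a) c α r₀ (by omega) hg S.smt S.t0 sχ χ0
    (sub_nonneg.2 a1) (sub_le_self _ a0.le) c0 q5 α0 α1.2 r0
  have hG := met_gs hg S.smt m
  have cv : CC ∞ (vs m) := by
    cases m with
    | zero => exact hv
    | succ j => exact (S.pst j j.lt_succ_self).cc
  have hU := fun x (hx : 0 < ϱ x) => hU n X g₀ ϱ Λ U V K m j₀ _ a α s ι d' g h' ε W t κ vs r₀ x S a0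
    q3 α0 s3 r0.le (lone hϱ hK hT hx).1 (fun y hy => ⟨(lone hϱ hK hT hy).2.1, V0 y hy,
      (lone hϱ hK hT hy).2.2⟩) _ _ _ _ _ rfl rfl rfl rfl rfl
  refine ⟨t, fun i y => vs m i y + b i y, K', h'', S.smt, cv.add b1, k1, k2,
    fun j hj x => ⟨S.t0 j x, fun h => ((S.pst j hj).out x fun h' => h h'.1).trans d2⟩,
    fun x hx => ?_, fun x => ?_⟩
  · obtain ⟨-, u1, u2⟩ := hU x (by linarith only [hx])
    refine ⟨(u2 hx).1, fun i => ?_, by linarith only [(u1 (by linarith only [hx])).2.2.2.1, i1.2]⟩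
    simp only [b2 x (χ2 x (by linarith only [hx])), add_zero, (u2 hx).2]
  have b3 := b3 _ cv x (δ / 100) α1.1 (by linarith only [δ1])
  obtain ⟨k4, k3⟩ := k3 x _ _ _ _ rfl rfl rfl rfl
  have r3 : r₀ ≤ rr r₀ t m x := le_add_of_nonneg_right (by positivity)
  have l0 := hV.l0 x
  have T0 : 0 ≤ tt g t m x := sum_nonneg fun j _ => hG.ip_nonneg _ _
  have c1 := ip_mono m0 hG (up_trans hu (up_gs m)) χ x
  have c2 := hG.ip_nonneg χ x
  have c3 : ϱ x ≤ 2 → ip (gs g t m) χ χ x = 0 := fun h => le_antisymm (c1.trans (χ1 x h).2) c2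
  have G0 : 0 ≤ if aa g t m x ≤ 4 * α then χ x * c * aa g t m x ^ 2 / (4 * n * rr r₀ t m x)
      else 0 := by
    have := (χ0 x).1
    have := r0.trans_le r3
    split_ifs <;> positivity
  rw [← q6] at b3
  rcases le_or_gt (ϱ x) 0 with hx | hx
  · obtain ⟨t1, t2, t3, t4, t5, t6, P, D, t7, t8, t9, t10, t11, t12⟩ := hI n X g₀ ϱ Λ U V K m _ a α s
      ι d' g h' ε W t κ vs δ r₀ x S a0 a1 δ0 δ1 α0 s3 (by positivity) r0.le l0
      (s6 _ l0 (hΛ ⟨x, trivial, rfl⟩)) hx _ _ _ _ _ _ rfl rfl rfl rfl rfl rfl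
    rw [c3 (hx.trans zero_le_two), mul_zero, sub_zero] at b3
    exact Q.inn hA r3 l0 (REn_nn m0 hp x) ((hE x).trans (le_abs_self B)) T0
      (sum_nonneg fun j _ => mul_nonneg (S.W0 j x) (sq_nonneg _)) (by positivity) (by positivity)
      (sum_nonneg fun j _ => mul_nonneg (S.W0 j x) (hG.ip_nonneg _ _)) (hG.ip_nonneg _ _) G0
      (fun h => by rw [if_pos h, (χ1 x (hx.trans zero_le_two)).1]; apply le_of_eq; ring)
      (by simpa using sum_le_card_nsmul (range m) _ 1 fun j _ =>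
        sub_le_self 1 (sq_nonneg (uu (gs g t j) (t j) x)))
      ⟨t1, t2, t3, t4, t5, t6⟩ t7 t8 t9 t10 t11 t12 b3 rfl k3
  rw [SS_out sϱ hϱ hK hT hx (V0 x hx), SS_out sϱ hϱ k1 k2 hx (V0 x hx)]
  obtain ⟨u1, u2, -⟩ := hU x hx
  rcases lt_or_ge (ϱ x) 3 with hy | hy
  · exact Q.mid hO r3 (by positivity) (by positivity) T0 (by positivity) (by positivity) G0 k4
      (u1 hx hy) ((le_total (ϱ x) 2).imp c3 fun h => ⟨(u2 h).1, (u2 h).2.1, c2, c1.trans (χ3 x)⟩) b3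
  · have p1 : Rv (gs g t m) (fun i y => vs m i y + b i y) x = Rv (gs g t m) (vs m) x :=
      Rv_congr fun i => (sϱ.cont.continuousAt.eventually (lt_mem_nhds
        (show 5 / 2 < ϱ x by linarith only [hy]))).mono fun y hy => by
          simp only [b2 y (χ2 y hy.le), add_zero]
    rw [p1]
    exact Q.far r3 (by positivity) (by positivity) T0 (u2 (by linarith only [hy])).2.2

end Vale.Agent.P210A
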